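import Vale.Agent.N340.Main

/-!
The Barendregt-Geuvers-Klop conjecture for pure type systems with definitions.
-/

namespace Vale.Agent.Results.P340.A0Definitions

open Vale.Agent.P340 Vale.Agent.N340

universe u

/-- (1) A pure type system is weakly normalizing if and only if its extension with global and local
definitions is strongly normalizing (beta steps, unfolding of definitions, removal of local
definitions). (2) The extension with definitions is weakly normalizing if and only if it is strongly
normalizing. -/
theorem result {S : Type u} (P : Spec S) :
    (WN P ↔ DSN P) ∧ (DWN P ↔ DSN P) :=
  ⟨wn_iff_dsn P, dwn_iff_dsn P⟩

end Vale.Agent.Results.P340.A0Definitions
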